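import Vale.Agent.Lib.P205.H26.HopfAlg

/-!
# P205: every torus metric depending on one coordinate is induced by a map into four-space

A metric `E(r) dr² + 2 M(r) dr dθ + G(r) dθ²` on the torus `ℝ² / (L ℤ × 2π ℤ)` is realized by a
generalized Hopf torus
`Φ(r, θ) = e^{i k (θ + h(r))} (√G(r) / k) U(S(r))`, `h' = M / G`,
where `U` is the horizontal lift of the closed curve `z = z0 + ε sin (8σ)` on the two-sphere:
`z0` is chosen so that the holonomy of `U` cancels the twist `k ∫₀ᴸ M / G`, and `ε` so that the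
length of the curve matches (intermediate value theorem).
-/

namespace Vale.Agent.Lib.P205.H26

open scoped ContDiff
open Vale.Agent.Lib.P229

theorem exists_invariant_torus_immersion (E M G : ℝ → ℝ) (L : ℝ) (hL : 0 < L)
    (hE : ContDiff ℝ ∞ E) (hM : ContDiff ℝ ∞ M) (hG : ContDiff ℝ ∞ G)
    (hEper : ∀ r, E (r + L) = E r) (hMper : ∀ r, M (r + L) = M r)
    (hGper : ∀ r, G (r + L) = G r)
    (hGpos : ∀ r, 0 < G r) (hdet : ∀ r, 0 < E r * G r - M r ^ 2) :
    ∃ X₁ X₂ X₃ X₄ : ℝ × ℝ → ℝ,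
      ContDiff ℝ ∞ X₁ ∧ ContDiff ℝ ∞ X₂ ∧ ContDiff ℝ ∞ X₃ ∧ ContDiff ℝ ∞ X₄ ∧
      (∀ r θ : ℝ, X₁ (r + L, θ) = X₁ (r, θ) ∧ X₂ (r + L, θ) = X₂ (r, θ) ∧
        X₃ (r + L, θ) = X₃ (r, θ) ∧ X₄ (r + L, θ) = X₄ (r, θ)) ∧
      (∀ r θ : ℝ, X₁ (r, θ + 2 * Real.pi) = X₁ (r, θ) ∧ X₂ (r, θ + 2 * Real.pi) = X₂ (r, θ) ∧
        X₃ (r, θ + 2 * Real.pi) = X₃ (r, θ) ∧ X₄ (r, θ + 2 * Real.pi) = X₄ (r, θ)) ∧
      ∀ x : ℝ × ℝ,
        (fderiv ℝ X₁ x (1, 0)) ^ 2 + (fderiv ℝ X₂ x (1, 0)) ^ 2 + (fderiv ℝ X₃ x (1, 0)) ^ 2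
          + (fderiv ℝ X₄ x (1, 0)) ^ 2 = E x.1 ∧
        fderiv ℝ X₁ x (1, 0) * fderiv ℝ X₁ x (0, 1) + fderiv ℝ X₂ x (1, 0) * fderiv ℝ X₂ x (0, 1)
          + fderiv ℝ X₃ x (1, 0) * fderiv ℝ X₃ x (0, 1)
          + fderiv ℝ X₄ x (1, 0) * fderiv ℝ X₄ x (0, 1) = M x.1 ∧
        (fderiv ℝ X₁ x (0, 1)) ^ 2 + (fderiv ℝ X₂ x (0, 1)) ^ 2 + (fderiv ℝ X₃ x (0, 1)) ^ 2
          + (fderiv ℝ X₄ x (0, 1)) ^ 2 = G x.1 := by
  have hpi : 0 < Real.pi := Real.pi_pos
  have hGne : ∀ r, G r ≠ 0 := fun r => ne_of_gt (hGpos r)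
  have hG' : ContDiff ℝ ∞ (deriv G) := by
    have h := hG
    rw [contDiff_infty_iff_deriv] at h
    exact h.2
  have hGd : ∀ r, HasDerivAt G (deriv G r) r := fun r =>
    ((hG.differentiable (by simp)) r).hasDerivAt
  have hG'per : ∀ r, deriv G (r + L) = deriv G r := by
    intro r
    have h1 : deriv (fun x => G (x + L)) r = deriv G (r + L) := deriv_comp_add_const G L r
    have h2 : (fun x => G (x + L)) = G := funext hGper
    rw [← h1, h2]
  -- the two auxiliary functions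
  set δ : ℝ → ℝ := fun r => (E r * G r - M r ^ 2) / G r with hδ
  set A : ℝ → ℝ := fun r => (deriv G r) ^ 2 / (4 * G r) with hA
  have hδpos : ∀ r, 0 < δ r := fun r => div_pos (hdet r) (hGpos r)
  have hA0 : ∀ r, 0 ≤ A r := fun r => by
    have := hGpos r
    simp only [hA]
    positivity
  have hδc : ContDiff ℝ ∞ δ := ((hE.mul hG).sub (hM.pow 2)).div hG hGne
  have hAc : ContDiff ℝ ∞ A :=
    (hG'.pow 2).div (contDiff_const.mul hG) (fun r => by have := hGne r; positivity)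
  have hδper : Function.Periodic δ L := fun r => by
    simp only [hδ, hEper r, hGper r, hMper r]
  have hAper : Function.Periodic A L := fun r => by
    simp only [hA, hG'per r, hGper r]
  -- a bound for the quotient
  have hquot : Continuous (fun r => A r / δ r) :=
    hAc.continuous.div hδc.continuous (fun r => ne_of_gt (hδpos r))
  have hquotper : Function.Periodic (fun r => A r / δ r) L := fun r => by
    show A (r + L) / δ (r + L) = A r / δ r
    rw [hAper r, hδper r]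
  obtain ⟨B, hB⟩ := periodic_bddAbove hL hquot hquotper
  -- a first winding number, making the radial part small
  set k0 : ℕ := ⌈B⌉₊ + 1 with hk0
  have hk01 : (1 : ℝ) ≤ k0 := by
    have : 1 ≤ k0 := by omega
    exact_mod_cast this
  have hBk0 : B < k0 := by
    have h1 : B ≤ ⌈B⌉₊ := Nat.le_ceil B
    have h2 : ((⌈B⌉₊ + 1 : ℕ) : ℝ) = (⌈B⌉₊ : ℝ) + 1 := by push_cast; ring
    rw [hk0, h2]
    linarith
  have hBk02 : B < (k0 : ℝ) ^ 2 := by nlinarith
  set D0 : ℝ → ℝ := fun r => δ r - A r / (k0 : ℝ) ^ 2 with hD0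
  have hD0pos : ∀ r, 0 < D0 r := by
    intro r
    have h1 : A r / δ r < (k0 : ℝ) ^ 2 := lt_of_le_of_lt (hB r) hBk02
    have h2 : A r < (k0 : ℝ) ^ 2 * δ r := (div_lt_iff₀ (hδpos r)).mp h1
    have h3 : A r / (k0 : ℝ) ^ 2 < δ r := by
      rw [div_lt_iff₀ (by positivity)]
      linarith
    simp only [hD0]
    linarith
  have hD0c : ContDiff ℝ ∞ D0 := hδc.sub (hAc.div_const _)
  have hD0per : Function.Periodic D0 L := fun r => by
    simp only [hD0, hδper r, hAper r]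
  -- a bound for G / D0
  have hquot2 : Continuous (fun r => G r / D0 r) :=
    hG.continuous.div hD0c.continuous (fun r => ne_of_gt (hD0pos r))
  have hquot2per : Function.Periodic (fun r => G r / D0 r) L := fun r => by
    show G (r + L) / D0 (r + L) = G r / D0 r
    rw [hGper r, hD0per r]
  obtain ⟨B2, hB2⟩ := periodic_bddAbove hL hquot2 hquot2per
  have hB2pos : 0 < B2 := lt_of_lt_of_le (div_pos (hGpos 0) (hD0pos 0)) (hB2 0)
  have hsB2pos : 0 < Real.sqrt B2 := Real.sqrt_pos.mpr hB2pos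
  -- the winding number
  set k : ℕ := k0 + ⌈4 * Real.pi * Real.sqrt B2 / L⌉₊ with hk
  have hk0k : (k0 : ℝ) ≤ k := by
    have : k0 ≤ k := by omega
    exact_mod_cast this
  have hkbig : 4 * Real.pi * Real.sqrt B2 / L ≤ k := by
    have h1 : 4 * Real.pi * Real.sqrt B2 / L ≤ ⌈4 * Real.pi * Real.sqrt B2 / L⌉₊ := Nat.le_ceil _
    have h2 : ((⌈4 * Real.pi * Real.sqrt B2 / L⌉₊ : ℕ) : ℝ) ≤ k := by
      have : ⌈4 * Real.pi * Real.sqrt B2 / L⌉₊ ≤ k := by omega
      exact_mod_cast this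
    linarith
  have hk1 : (1 : ℝ) ≤ k := le_trans hk01 hk0k
  have hkpos : (0 : ℝ) < k := by linarith
  have hkne : (k : ℝ) ≠ 0 := ne_of_gt hkpos
  set D : ℝ → ℝ := fun r => δ r - A r / (k : ℝ) ^ 2 with hD
  have hDD0 : ∀ r, D0 r ≤ D r := by
    intro r
    have h1 : A r / (k : ℝ) ^ 2 ≤ A r / (k0 : ℝ) ^ 2 := by
      apply div_le_div_of_nonneg_left (hA0 r) (by positivity)
      nlinarith
    simp only [hD, hD0]
    linarith
  have hDpos : ∀ r, 0 < D r := fun r => lt_of_lt_of_le (hD0pos r) (hDD0 r)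
  have hDc : ContDiff ℝ ∞ D := hδc.sub (hAc.div_const _)
  have hDper : Function.Periodic D L := fun r => by
    simp only [hD, hδper r, hAper r]
  -- the speed on the sphere
  set w : ℝ → ℝ := fun r => Real.sqrt (D r / G r) with hw
  have hDG : ∀ r, 0 < D r / G r := fun r => div_pos (hDpos r) (hGpos r)
  have hwc : ContDiff ℝ ∞ w := (hDc.div hG hGne).sqrt (fun r => ne_of_gt (hDG r))
  have hwper : Function.Periodic w L := fun r => by
    simp only [hw, hDper r, hGper r]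
  have hwlow : ∀ r, 1 / Real.sqrt B2 ≤ w r := by
    intro r
    have h1 : G r / D0 r ≤ B2 := hB2 r
    have h2 : G r ≤ B2 * D0 r := (div_le_iff₀ (hD0pos r)).mp h1
    have h3 : 1 / B2 ≤ D r / G r := by
      rw [div_le_div_iff₀ hB2pos (hGpos r)]
      nlinarith [hDD0 r]
    simp only [hw]
    apply Real.le_sqrt_of_sq_le
    have h4 : (1 / Real.sqrt B2) ^ 2 = 1 / B2 := by
      rw [div_pow, Real.sq_sqrt hB2pos.le]
      ring
    rw [h4]
    exact h3
  set Wh : ℝ → ℝ := gprim w with hWh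
  have hWhc : ContDiff ℝ ∞ Wh := gprim_contDiff hwc
  have hWhper : ∀ r, Wh (r + L) = Wh r + Wh L := gprim_add_period hwc.continuous hwper
  have hWlow : L / Real.sqrt B2 ≤ Wh L := by
    have h := intervalIntegral.integral_mono_on (μ := MeasureTheory.volume) hL.le
      (continuous_const.intervalIntegrable (μ := MeasureTheory.volume) 0 L)
      (hwc.continuous.intervalIntegrable 0 L) (fun r _ => hwlow r)
    have h2 : ∫ _ in (0 : ℝ)..L, (1 / Real.sqrt B2 : ℝ) = L / Real.sqrt B2 := by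
      rw [intervalIntegral.integral_const]
      simp
      ring
    simp only [hWh, gprim]
    linarith
  have hkW : 4 * Real.pi ≤ k * Wh L := by
    have h1 : 4 * Real.pi * Real.sqrt B2 ≤ k * L := (div_le_iff₀ hL).mp hkbig
    have h2 : (k : ℝ) * (L / Real.sqrt B2) ≤ k * Wh L :=
      mul_le_mul_of_nonneg_left hWlow hkpos.le
    have h3 : 4 * Real.pi ≤ (k : ℝ) * (L / Real.sqrt B2) := by
      rw [← mul_div_assoc, le_div_iff₀ hsB2pos]
      exact h1
    linarith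
  -- the number of turns on the sphere
  set n : ℕ := ⌊k * Wh L / Real.pi⌋₊ with hn
  have hq0 : 0 ≤ k * Wh L / Real.pi := by
    apply div_nonneg _ hpi.le
    linarith
  have hn4 : 4 ≤ n := by
    apply Nat.le_floor
    rw [le_div_iff₀ hpi]
    push_cast
    linarith
  have hn4' : (4 : ℝ) ≤ n := by exact_mod_cast hn4
  have hnpos : (0 : ℝ) < n := by linarith
  have hn_le : (n : ℝ) * Real.pi ≤ k * Wh L := by
    have h := Nat.floor_le hq0
    exact (le_div_iff₀ hpi).mp h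
  have hn_lt : k * Wh L < ((n : ℝ) + 1) * Real.pi := by
    have h := Nat.lt_floor_add_one (k * Wh L / Real.pi)
    exact (div_lt_iff₀ hpi).mp h
  -- the twist
  set ψ : ℝ → ℝ := fun r => M r / G r with hψ
  have hψc : ContDiff ℝ ∞ ψ := hM.div hG hGne
  have hψper : Function.Periodic ψ L := fun r => by
    simp only [hψ, hMper r, hGper r]
  set hf : ℝ → ℝ := gprim ψ with hhf
  have hhfc : ContDiff ℝ ∞ hf := gprim_contDiff hψc
  have hhfper : ∀ r, hf (r + L) = hf r + hf L := gprim_add_period hψc.continuous hψper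
  -- the height of the curve on the sphere
  set j : ℤ := ⌈(3 * Real.pi * n / 4 + k * hf L) / (2 * Real.pi)⌉ with hj
  have hj1 : 3 * Real.pi * n / 4 + k * hf L ≤ j * (2 * Real.pi) := by
    have h := Int.le_ceil ((3 * Real.pi * n / 4 + k * hf L) / (2 * Real.pi))
    exact (div_le_iff₀ (by positivity)).mp h
  have hj2 : (j : ℝ) * (2 * Real.pi) < 3 * Real.pi * n / 4 + k * hf L + 2 * Real.pi := by
    have h := Int.ceil_lt_add_one ((3 * Real.pi * n / 4 + k * hf L) / (2 * Real.pi))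
    have h2 : (j : ℝ) * (2 * Real.pi)
        < ((3 * Real.pi * n / 4 + k * hf L) / (2 * Real.pi) + 1) * (2 * Real.pi) :=
      mul_lt_mul_of_pos_right h (by positivity)
    have h3 : ((3 * Real.pi * n / 4 + k * hf L) / (2 * Real.pi) + 1) * (2 * Real.pi)
        = 3 * Real.pi * n / 4 + k * hf L + 2 * Real.pi := by
      field_simp
    linarith
  set z0 : ℝ := 1 - (j * (2 * Real.pi) - k * hf L) / (Real.pi * n) with hz0def
  have hpin : 0 < Real.pi * n := by positivity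
  have hz0 : |z0| ≤ 1 / 4 := by
    rw [abs_le]
    constructor
    · have h1 : (j * (2 * Real.pi) - k * hf L) / (Real.pi * n) ≤ 5 / 4 := by
        rw [div_le_iff₀ hpin]
        nlinarith
      simp only [hz0def]
      linarith
    · have h1 : 3 / 4 ≤ (j * (2 * Real.pi) - k * hf L) / (Real.pi * n) := by
        rw [le_div_iff₀ hpin]
        nlinarith
      simp only [hz0def]
      linarith
  have hphase : k * hf L + n * (Real.pi * (1 - z0)) = j * (2 * Real.pi) := by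
    simp only [hz0def]
    field_simp
    ring
  -- the amplitude of the wiggle: the length condition
  have hy1 : Real.pi ≤ k * Wh L / n := by
    rw [le_div_iff₀ hnpos]
    linarith
  have hy2 : k * Wh L / n ≤ 2 * Real.pi := by
    rw [div_le_iff₀ hnpos]
    nlinarith
  obtain ⟨ε, hε0, hε1, hεL⟩ := exists_eps hz0 hy1 hy2
  have hnΛ : (n : ℝ) * Lamf z0 ε (2 * Real.pi) = k * Wh L := by
    rw [hεL]
    field_simp
  -- the inverse of the arclength
  obtain ⟨Ψ, hΨc, hΨ1, hΨ2, hΨd⟩ := exists_smooth_inverse (Lamf_contDiff hz0 hε0 hε1)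
    (Lamf_hasDerivAt hz0 hε0 hε1) (lamf_ge hz0 hε0 hε1)
  set S : ℝ → ℝ := fun r => Ψ (k * Wh r) with hS
  have hSc : ContDiff ℝ ∞ S := hΨc.comp (contDiff_const.mul hWhc)
  have hSper : ∀ r, S (r + L) = S r + n * (2 * Real.pi) := by
    intro r
    have h1 : Lamf z0 ε (S r + n * (2 * Real.pi)) = k * Wh (r + L) := by
      rw [shift_nat (Lamf_add_two_pi hz0 hε0 hε1) n (S r), hWhper r, hnΛ]
      simp only [hS]
      rw [hΨ1]
      ring
    have h2 : S (r + L) = Ψ (Lamf z0 ε (S r + n * (2 * Real.pi))) := by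
      rw [h1]
    rw [h2, hΨ2]
  have hSd : ∀ r, HasDerivAt S ((lamf z0 ε (S r))⁻¹ * (k * w r)) r := by
    intro r
    have h1 : HasDerivAt (fun r => (k : ℝ) * Wh r) (k * w r) r :=
      (gprim_hasDerivAt hwc.continuous r).const_mul (k : ℝ)
    exact (hΨd (k * Wh r)).comp r h1
  -- the four functions of `r`
  set ρ : ℝ → ℝ := fun r => Real.sqrt (G r) / k with hρ
  have hρc : ContDiff ℝ ∞ ρ := (hG.sqrt hGne).div_const _
  set P : ℝ → ℝ := fun r => ρ r * cfun z0 ε (S r) with hP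
  set Q : ℝ → ℝ := fun r => ρ r * sfun z0 ε (S r) with hQ
  set a : ℝ → ℝ := fun r => k * hf r + altf z0 ε (S r) with ha
  set b : ℝ → ℝ := fun r => k * hf r + betf z0 ε (S r) with hb
  have hPc : ContDiff ℝ ∞ P := hρc.mul ((cfun_contDiff hz0 hε0 hε1).comp hSc)
  have hQc : ContDiff ℝ ∞ Q := hρc.mul ((sfun_contDiff hz0 hε0 hε1).comp hSc)
  have hac : ContDiff ℝ ∞ a := (contDiff_const.mul hhfc).add (altf_contDiff.comp hSc)
  have hbc : ContDiff ℝ ∞ b := (contDiff_const.mul hhfc).add (betf_contDiff.comp hSc)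
  have hθa : ContDiff ℝ ∞ (fun x : ℝ × ℝ => (k : ℝ) * x.2 + a x.1) :=
    (contDiff_const.mul contDiff_snd).add (hac.comp contDiff_fst)
  have hθb : ContDiff ℝ ∞ (fun x : ℝ × ℝ => (k : ℝ) * x.2 + b x.1) :=
    (contDiff_const.mul contDiff_snd).add (hbc.comp contDiff_fst)
  have hPfst : ContDiff ℝ ∞ (fun x : ℝ × ℝ => P x.1) := hPc.comp contDiff_fst
  have hQfst : ContDiff ℝ ∞ (fun x : ℝ × ℝ => Q x.1) := hQc.comp contDiff_fst
  -- periodicity of the four functions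
  have hPper : ∀ r, P (r + L) = P r := by
    intro r
    simp only [hP, hρ, hGper r, hSper r]
    rw [(cfun_periodic.nat_mul n) (S r)]
  have hQper : ∀ r, Q (r + L) = Q r := by
    intro r
    simp only [hQ, hρ, hGper r, hSper r]
    rw [(sfun_periodic.nat_mul n) (S r)]
  have haper : ∀ r, a (r + L) = a r + j * (2 * Real.pi) := by
    intro r
    simp only [ha, hSper r, hhfper r]
    rw [shift_nat altf_add_two_pi n (S r)]
    linear_combination hphase
  have hbper : ∀ r, b (r + L) = b r + ((j - n : ℤ) : ℝ) * (2 * Real.pi) := by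
    intro r
    simp only [hb, hSper r, hhfper r]
    rw [shift_nat betf_add_two_pi n (S r)]
    push_cast
    linear_combination hphase
  refine ⟨surfX P a k, surfY P a k, surfX Q b k, surfY Q b k, ?_, ?_, ?_, ?_, ?_, ?_, ?_⟩
  · exact hPfst.mul (Real.contDiff_cos.comp hθa)
  · exact hPfst.mul (Real.contDiff_sin.comp hθa)
  · exact hQfst.mul (Real.contDiff_cos.comp hθb)
  · exact hQfst.mul (Real.contDiff_sin.comp hθb)
  · intro r θ
    have e1 : (k : ℝ) * θ + a (r + L) = ((k : ℝ) * θ + a r) + j * (2 * Real.pi) := by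
      rw [haper r]
      ring
    have e2 : (k : ℝ) * θ + b (r + L)
        = ((k : ℝ) * θ + b r) + ((j - n : ℤ) : ℝ) * (2 * Real.pi) := by
      rw [hbper r]
      ring
    refine ⟨?_, ?_, ?_, ?_⟩
    · show P (r + L) * Real.cos ((k : ℝ) * θ + a (r + L)) = P r * Real.cos ((k : ℝ) * θ + a r)
      rw [hPper r, e1, Real.cos_add_int_mul_two_pi]
    · show P (r + L) * Real.sin ((k : ℝ) * θ + a (r + L)) = P r * Real.sin ((k : ℝ) * θ + a r)
      rw [hPper r, e1, Real.sin_add_int_mul_two_pi]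
    · show Q (r + L) * Real.cos ((k : ℝ) * θ + b (r + L)) = Q r * Real.cos ((k : ℝ) * θ + b r)
      rw [hQper r, e2, Real.cos_add_int_mul_two_pi]
    · show Q (r + L) * Real.sin ((k : ℝ) * θ + b (r + L)) = Q r * Real.sin ((k : ℝ) * θ + b r)
      rw [hQper r, e2, Real.sin_add_int_mul_two_pi]
  · intro r θ
    have e1 : (k : ℝ) * (θ + 2 * Real.pi) + a r = ((k : ℝ) * θ + a r) + (k : ℕ) * (2 * Real.pi) := by
      ring
    have e2 : (k : ℝ) * (θ + 2 * Real.pi) + b r = ((k : ℝ) * θ + b r) + (k : ℕ) * (2 * Real.pi) := by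
      ring
    refine ⟨?_, ?_, ?_, ?_⟩
    · show P r * Real.cos ((k : ℝ) * (θ + 2 * Real.pi) + a r) = P r * Real.cos ((k : ℝ) * θ + a r)
      rw [e1, Real.cos_add_nat_mul_two_pi]
    · show P r * Real.sin ((k : ℝ) * (θ + 2 * Real.pi) + a r) = P r * Real.sin ((k : ℝ) * θ + a r)
      rw [e1, Real.sin_add_nat_mul_two_pi]
    · show Q r * Real.cos ((k : ℝ) * (θ + 2 * Real.pi) + b r) = Q r * Real.cos ((k : ℝ) * θ + b r)
      rw [e2, Real.cos_add_nat_mul_two_pi]
    · show Q r * Real.sin ((k : ℝ) * (θ + 2 * Real.pi) + b r) = Q r * Real.sin ((k : ℝ) * θ + b r)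
      rw [e2, Real.sin_add_nat_mul_two_pi]
  · intro x
    have hGx : 0 < G x.1 := hGpos x.1
    have hρd : HasDerivAt ρ (deriv G x.1 / (2 * Real.sqrt (G x.1)) / k) x.1 :=
      ((hGd x.1).sqrt (ne_of_gt hGx)).div_const _
    have hcd : HasDerivAt (fun r => cfun z0 ε (S r))
        (dzf ε (S x.1) / 2 / (2 * cfun z0 ε (S x.1)) * ((lamf z0 ε (S x.1))⁻¹ * (k * w x.1))) x.1 :=
      (cfun_hasDerivAt hz0 hε0 hε1 (S x.1)).comp x.1 (hSd x.1)
    have hsd : HasDerivAt (fun r => sfun z0 ε (S r))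
        (-dzf ε (S x.1) / 2 / (2 * sfun z0 ε (S x.1)) * ((lamf z0 ε (S x.1))⁻¹ * (k * w x.1))) x.1 :=
      (sfun_hasDerivAt hz0 hε0 hε1 (S x.1)).comp x.1 (hSd x.1)
    have hPd : HasDerivAt P (deriv G x.1 / (2 * Real.sqrt (G x.1)) / k * cfun z0 ε (S x.1)
        + Real.sqrt (G x.1) / k * (dzf ε (S x.1) / 2 / (2 * cfun z0 ε (S x.1))
          * ((lamf z0 ε (S x.1))⁻¹ * (k * w x.1)))) x.1 := hρd.mul hcd
    have hQd : HasDerivAt Q (deriv G x.1 / (2 * Real.sqrt (G x.1)) / k * sfun z0 ε (S x.1)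
        + Real.sqrt (G x.1) / k * (-dzf ε (S x.1) / 2 / (2 * sfun z0 ε (S x.1))
          * ((lamf z0 ε (S x.1))⁻¹ * (k * w x.1)))) x.1 := hρd.mul hsd
    have hhfd : HasDerivAt (fun r => (k : ℝ) * hf r) (k * (M x.1 / G x.1)) x.1 :=
      (gprim_hasDerivAt hψc.continuous x.1).const_mul (k : ℝ)
    have had : HasDerivAt a (k * (M x.1 / G x.1)
        + (1 - zf z0 ε (S x.1)) / 2 * ((lamf z0 ε (S x.1))⁻¹ * (k * w x.1))) x.1 :=
      hhfd.add ((altf_hasDerivAt (S x.1)).comp x.1 (hSd x.1))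
    have hbd : HasDerivAt b (k * (M x.1 / G x.1)
        + -((1 + zf z0 ε (S x.1)) / 2) * ((lamf z0 ε (S x.1))⁻¹ * (k * w x.1))) x.1 :=
      hhfd.add ((betf_hasDerivAt (S x.1)).comp x.1 (hSd x.1))
    obtain ⟨hE1, hM1, hG1⟩ := hopf_metric (k := (k : ℝ)) hPd had hQd hbd
    rw [hE1, hM1, hG1]
    have hc2 := cfun_sq hz0 hε0 hε1 (S x.1)
    have hs2 := sfun_sq hz0 hε0 hε1 (S x.1)
    have hcpos := cfun_pos hz0 hε0 hε1 (S x.1)
    have hspos := sfun_pos hz0 hε0 hε1 (S x.1)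
    have hlmpos : 0 < lamf z0 ε (S x.1) := by
      have := lamf_ge hz0 hε0 hε1 (S x.1)
      linarith
    have hlm2 : lamf z0 ε (S x.1) ^ 2 = ((1 - zf z0 ε (S x.1) ^ 2)
        + dzf ε (S x.1) ^ 2 / (1 - zf z0 ε (S x.1) ^ 2)) / 4 := lamf_sq hz0 hε0 hε1 (S x.1)
    have hqpos : 0 < 1 - zf z0 ε (S x.1) ^ 2 := by
      have := (q_bounds hz0 hε0 hε1 (S x.1)).1
      linarith
    have hsG : Real.sqrt (G x.1) ^ 2 = G x.1 := Real.sq_sqrt hGx.le
    have hsGpos : 0 < Real.sqrt (G x.1) := Real.sqrt_pos.mpr hGx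
    have hw2 : w x.1 ^ 2 = D x.1 / G x.1 := Real.sq_sqrt (hDG x.1).le
    have hDval : D x.1 = (E x.1 * G x.1 - M x.1 ^ 2) / G x.1
        - (deriv G x.1) ^ 2 / (4 * G x.1) / (k : ℝ) ^ 2 := rfl
    have hPval : P x.1 = Real.sqrt (G x.1) / k * cfun z0 ε (S x.1) := rfl
    have hQval : Q x.1 = Real.sqrt (G x.1) / k * sfun z0 ε (S x.1) := rfl
    rw [hPval, hQval]
    refine ⟨?_, ?_, ?_⟩
    · exact alg_E (cfun z0 ε (S x.1)) (sfun z0 ε (S x.1)) (zf z0 ε (S x.1)) (dzf ε (S x.1))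
        (lamf z0 ε (S x.1)) ((lamf z0 ε (S x.1))⁻¹ * (k * w x.1)) (w x.1) (Real.sqrt (G x.1)) k
        (deriv G x.1) (M x.1) (G x.1) (E x.1) (D x.1) hcpos hspos hlmpos hsGpos hkpos hGx hqpos
        hc2 hs2 hlm2 rfl hw2 hsG hDval
    · exact alg_M (cfun z0 ε (S x.1)) (sfun z0 ε (S x.1)) (zf z0 ε (S x.1))
        ((lamf z0 ε (S x.1))⁻¹ * (k * w x.1)) (Real.sqrt (G x.1)) k (M x.1) (G x.1) hkpos hGx
        hc2 hs2 hsG
    · exact alg_G (cfun z0 ε (S x.1)) (sfun z0 ε (S x.1)) (zf z0 ε (S x.1))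
        (Real.sqrt (G x.1)) k (G x.1) hkpos hc2 hs2 hsG

end Vale.Agent.Lib.P205.H26
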