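import Vale.Agent.Lib.P205.H26.Inverse

/-!
# P205: the metric of a generalized Hopf torus (pointwise algebra)
-/

namespace Vale.Agent.Lib.P205.H26

open scoped ContDiff
open Vale.Agent.Lib.P229

/-- first fundamental form of `(P e^{i(kθ+a)}, Q e^{i(kθ+b)})` -/
theorem hopf_metric {P a Q b : ℝ → ℝ} {k : ℝ} {x : ℝ × ℝ} {P' a' Q' b' : ℝ}
    (hP : HasDerivAt P P' x.1) (ha : HasDerivAt a a' x.1)
    (hQ : HasDerivAt Q Q' x.1) (hb : HasDerivAt b b' x.1) :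
    (fderiv ℝ (surfX P a k) x (1, 0)) ^ 2 + (fderiv ℝ (surfY P a k) x (1, 0)) ^ 2
        + (fderiv ℝ (surfX Q b k) x (1, 0)) ^ 2 + (fderiv ℝ (surfY Q b k) x (1, 0)) ^ 2
      = P' ^ 2 + (P x.1 * a') ^ 2 + Q' ^ 2 + (Q x.1 * b') ^ 2 ∧
    fderiv ℝ (surfX P a k) x (1, 0) * fderiv ℝ (surfX P a k) x (0, 1)
        + fderiv ℝ (surfY P a k) x (1, 0) * fderiv ℝ (surfY P a k) x (0, 1)
        + fderiv ℝ (surfX Q b k) x (1, 0) * fderiv ℝ (surfX Q b k) x (0, 1)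
        + fderiv ℝ (surfY Q b k) x (1, 0) * fderiv ℝ (surfY Q b k) x (0, 1)
      = k * (P x.1 ^ 2 * a' + Q x.1 ^ 2 * b') ∧
    (fderiv ℝ (surfX P a k) x (0, 1)) ^ 2 + (fderiv ℝ (surfY P a k) x (0, 1)) ^ 2
        + (fderiv ℝ (surfX Q b k) x (0, 1)) ^ 2 + (fderiv ℝ (surfY Q b k) x (0, 1)) ^ 2
      = k ^ 2 * (P x.1 ^ 2 + Q x.1 ^ 2) := by
  rw [surfX_dx hP ha, surfX_dy hP ha, surfY_dx hP ha, surfY_dy hP ha,
    surfX_dx hQ hb, surfX_dy hQ hb, surfY_dx hQ hb, surfY_dy hQ hb]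
  have h1 := Real.sin_sq_add_cos_sq (k * x.2 + a x.1)
  have h2 := Real.sin_sq_add_cos_sq (k * x.2 + b x.1)
  refine ⟨?_, ?_, ?_⟩
  · linear_combination (P' ^ 2 + (P x.1 * a') ^ 2) * h1 + (Q' ^ 2 + (Q x.1 * b') ^ 2) * h2
  · linear_combination (k * P x.1 ^ 2 * a') * h1 + (k * Q x.1 ^ 2 * b') * h2
  · linear_combination (k ^ 2 * P x.1 ^ 2) * h1 + (k ^ 2 * Q x.1 ^ 2) * h2

theorem algA (ρ' κ c s : ℝ) (hc : c ≠ 0) (hs : s ≠ 0) (h : c ^ 2 + s ^ 2 = 1) :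
    (ρ' * c + κ / c) ^ 2 + (ρ' * s - κ / s) ^ 2 = ρ' ^ 2 + κ ^ 2 / (c ^ 2 * s ^ 2) := by
  field_simp
  linear_combination (ρ' ^ 2 * c ^ 2 * s ^ 2 + κ ^ 2) * h

theorem algB (ρ μ v c s : ℝ) (h : c ^ 2 + s ^ 2 = 1) :
    (ρ * c * (μ + s ^ 2 * v)) ^ 2 + (ρ * s * (μ + -(c ^ 2) * v)) ^ 2
      = ρ ^ 2 * (μ ^ 2 + v ^ 2 * (c ^ 2 * s ^ 2)) := by
  linear_combination (ρ ^ 2 * (μ ^ 2 + v ^ 2 * c ^ 2 * s ^ 2)) * h

theorem alg_E (c s z ζ lm v wv sG k g' Mv Gv Ev Dv : ℝ) (hc : 0 < c) (hs : 0 < s)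
    (hlm : 0 < lm) (hsGpos : 0 < sG) (hk : 0 < k) (hGv : 0 < Gv) (hq : 0 < 1 - z ^ 2)
    (hc2 : c ^ 2 = (1 + z) / 2) (hs2 : s ^ 2 = (1 - z) / 2)
    (hlm2 : lm ^ 2 = ((1 - z ^ 2) + ζ ^ 2 / (1 - z ^ 2)) / 4)
    (hv : v = lm⁻¹ * (k * wv)) (hw2 : wv ^ 2 = Dv / Gv) (hsG : sG ^ 2 = Gv)
    (hD : Dv = (Ev * Gv - Mv ^ 2) / Gv - g' ^ 2 / (4 * Gv) / k ^ 2) :
    (g' / (2 * sG) / k * c + sG / k * (ζ / 2 / (2 * c) * v)) ^ 2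
      + (sG / k * c * (k * (Mv / Gv) + (1 - z) / 2 * v)) ^ 2
      + (g' / (2 * sG) / k * s + sG / k * (-ζ / 2 / (2 * s) * v)) ^ 2
      + (sG / k * s * (k * (Mv / Gv) + -((1 + z) / 2) * v)) ^ 2 = Ev := by
  have h1 : c ^ 2 + s ^ 2 = 1 := by rw [hc2, hs2]; ring
  have hcs : c ^ 2 * s ^ 2 = (1 - z ^ 2) / 4 := by rw [hc2, hs2]; ring
  have hvl : v * lm = k * wv := by rw [hv]; field_simp
  have e1 : g' / (2 * sG) / k * c + sG / k * (ζ / 2 / (2 * c) * v)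
      = (g' / (2 * sG) / k) * c + (sG / k * ζ * v / 4) / c := by
    field_simp
    ring
  have e3 : g' / (2 * sG) / k * s + sG / k * (-ζ / 2 / (2 * s) * v)
      = (g' / (2 * sG) / k) * s - (sG / k * ζ * v / 4) / s := by
    field_simp
    ring
  have hA := algA (g' / (2 * sG) / k) (sG / k * ζ * v / 4) c s (ne_of_gt hc) (ne_of_gt hs) h1
  have hB := algB (sG / k) (k * (Mv / Gv)) v c s h1
  rw [← hs2, ← hc2]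
  have hsum : (g' / (2 * sG) / k * c + sG / k * (ζ / 2 / (2 * c) * v)) ^ 2
      + (sG / k * c * (k * (Mv / Gv) + s ^ 2 * v)) ^ 2
      + (g' / (2 * sG) / k * s + sG / k * (-ζ / 2 / (2 * s) * v)) ^ 2
      + (sG / k * s * (k * (Mv / Gv) + -(c ^ 2) * v)) ^ 2
      = (g' / (2 * sG) / k) ^ 2 + (sG / k * ζ * v / 4) ^ 2 / (c ^ 2 * s ^ 2)
        + (sG / k) ^ 2 * ((k * (Mv / Gv)) ^ 2 + v ^ 2 * (c ^ 2 * s ^ 2)) := by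
    rw [e1, e3]
    linear_combination hA + hB
  rw [hsum]
  have h5 : (sG / k * ζ * v / 4) ^ 2 / (c ^ 2 * s ^ 2) + (sG / k) ^ 2 * (v ^ 2 * (c ^ 2 * s ^ 2))
      = (sG / k) ^ 2 * (v * lm) ^ 2 := by
    rw [hcs, mul_pow v lm, hlm2]
    field_simp
    ring
  have h6 : (g' / (2 * sG) / k) ^ 2 = g' ^ 2 / (4 * Gv) / k ^ 2 := by
    rw [← hsG]
    field_simp
    ring
  have h7 : (sG / k) ^ 2 * (k * (Mv / Gv)) ^ 2 = Mv ^ 2 / Gv := by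
    rw [div_pow, hsG]
    field_simp
  have h8 : (sG / k) ^ 2 * (v * lm) ^ 2 = Dv := by
    rw [hvl, div_pow, hsG, mul_pow, hw2]
    field_simp
  have h9 : (g' / (2 * sG) / k) ^ 2 + (sG / k * ζ * v / 4) ^ 2 / (c ^ 2 * s ^ 2)
        + (sG / k) ^ 2 * ((k * (Mv / Gv)) ^ 2 + v ^ 2 * (c ^ 2 * s ^ 2))
      = g' ^ 2 / (4 * Gv) / k ^ 2 + Mv ^ 2 / Gv + Dv := by
    linear_combination h5 + h6 + h7 + h8
  rw [h9, hD]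
  field_simp
  ring

theorem alg_M (c s z v sG k Mv Gv : ℝ) (hk : 0 < k) (hGv : 0 < Gv)
    (hc2 : c ^ 2 = (1 + z) / 2) (hs2 : s ^ 2 = (1 - z) / 2) (hsG : sG ^ 2 = Gv) :
    k * ((sG / k * c) ^ 2 * (k * (Mv / Gv) + (1 - z) / 2 * v)
      + (sG / k * s) ^ 2 * (k * (Mv / Gv) + -((1 + z) / 2) * v)) = Mv := by
  have h1 : c ^ 2 + s ^ 2 = 1 := by rw [hc2, hs2]; ring
  rw [← hs2, ← hc2]
  have e : k * ((sG / k * c) ^ 2 * (k * (Mv / Gv) + s ^ 2 * v)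
      + (sG / k * s) ^ 2 * (k * (Mv / Gv) + -(c ^ 2) * v))
      = sG ^ 2 * (Mv / Gv) * (c ^ 2 + s ^ 2) := by
    field_simp
    ring
  rw [e, h1, hsG]
  field_simp

theorem alg_G (c s z sG k Gv : ℝ) (hk : 0 < k)
    (hc2 : c ^ 2 = (1 + z) / 2) (hs2 : s ^ 2 = (1 - z) / 2) (hsG : sG ^ 2 = Gv) :
    k ^ 2 * ((sG / k * c) ^ 2 + (sG / k * s) ^ 2) = Gv := by
  have h1 : c ^ 2 + s ^ 2 = 1 := by rw [hc2, hs2]; ring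
  have e : k ^ 2 * ((sG / k * c) ^ 2 + (sG / k * s) ^ 2) = sG ^ 2 * (c ^ 2 + s ^ 2) := by
    field_simp
  rw [e, h1, hsG]
  ring

end Vale.Agent.Lib.P205.H26
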