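import Vale.Agent.Lib.P205.H26.Sphere

/-!
# P205: smooth inverse of a smooth function with derivative bounded below
-/

namespace Vale.Agent.Lib.P205.H26

open scoped ContDiff

/-- A `C^∞` function on the line whose derivative is at least `1/4` has a `C^∞` inverse. -/
theorem exists_smooth_inverse {F f : ℝ → ℝ} (hF : ContDiff ℝ ∞ F)
    (hd : ∀ x, HasDerivAt F (f x) x) (hf : ∀ x, 1 / 4 ≤ f x) :
    ∃ Ψ : ℝ → ℝ, ContDiff ℝ ∞ Ψ ∧ (∀ y, F (Ψ y) = y) ∧ (∀ x, Ψ (F x) = x) ∧
      ∀ y, HasDerivAt Ψ (f (Ψ y))⁻¹ y := by
  have hmono : StrictMono F :=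
    strictMono_of_deriv_pos (fun x => by rw [(hd x).deriv]; linarith [hf x])
  -- comparison with the line of slope 1/4
  have hgd : ∀ x, HasDerivAt (fun x => F x - x / 4) (f x - 1 / 4) x := fun x =>
    (hd x).sub ((hasDerivAt_id x).div_const 4)
  have hgmono : Monotone (fun x => F x - x / 4) :=
    monotone_of_deriv_nonneg (fun x => (hgd x).differentiableAt)
      (fun x => by rw [(hgd x).deriv]; linarith [hf x])
  have htop : Filter.Tendsto F Filter.atTop Filter.atTop := by
    have h1 : Filter.Tendsto (fun x : ℝ => F 0 + x / 4) Filter.atTop Filter.atTop :=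
      Filter.tendsto_atTop_add_const_left _ _
        (Filter.tendsto_id.atTop_div_const (by norm_num : (0 : ℝ) < 4))
    refine Filter.tendsto_atTop_mono' _ ?_ h1
    filter_upwards [Filter.eventually_ge_atTop (0 : ℝ)] with x hx
    have := hgmono hx
    simp only [zero_div, sub_zero] at this
    linarith
  have hbot : Filter.Tendsto F Filter.atBot Filter.atBot := by
    have h1 : Filter.Tendsto (fun x : ℝ => F 0 + x / 4) Filter.atBot Filter.atBot :=
      Filter.tendsto_atBot_add_const_left _ _
        (Filter.tendsto_id.atBot_div_const (by norm_num : (0 : ℝ) < 4))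
    refine Filter.tendsto_atBot_mono' _ ?_ h1
    filter_upwards [Filter.eventually_le_atBot (0 : ℝ)] with x hx
    have := hgmono hx
    simp only [zero_div, sub_zero] at this
    linarith
  have hsurj : Function.Surjective F := hF.continuous.surjective htop hbot
  set e : ℝ ≃o ℝ := hmono.orderIsoOfSurjective F hsurj with he
  have hcoe : ∀ x, e x = F x := fun x => rfl
  have h1 : ∀ y, F (e.symm y) = y := fun y => by rw [← hcoe]; exact e.apply_symm_apply y
  have h2 : ∀ x, e.symm (F x) = x := fun x => by rw [← hcoe]; exact e.symm_apply_apply x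
  have hne : ∀ x, f x ≠ 0 := fun x => by have := hf x; intro h; rw [h] at this; norm_num at this
  have hΨd : ∀ y, HasDerivAt (fun y => e.symm y) (f (e.symm y))⁻¹ y := fun y =>
    HasDerivAt.of_local_left_inverse (e.symm.continuous.continuousAt) (hd (e.symm y)) (hne _)
      (Filter.Eventually.of_forall h1)
  refine ⟨fun y => e.symm y, ?_, h1, h2, hΨd⟩
  rw [contDiff_iff_contDiffAt]
  intro y
  have := (e.toHomeomorph.toOpenPartialHomeomorph).contDiffAt_symm_deriv (n := ∞)
    (f₀' := f (e.symm y)) (a := y) (hne _) (by simp)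
    (hd (e.symm y)) hF.contDiffAt
  exact this

end Vale.Agent.Lib.P205.H26
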