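import Vale.Agent.Lib.P205.H26.Torus

/-!
# P205: closed curves on the two-sphere in Archimedes coordinates and their horizontal lifts

For `|z0| ≤ 1/4` and `0 ≤ ε ≤ 1/2` the curve `σ ↦ (z, longitude) = (z0 + ε sin (8σ), σ)` on the
sphere of radius `1/2` has the horizontal lift (for the Hopf fibration)
`U(σ) = (√((1+z)/2) e^{i α(σ)}, √((1-z)/2) e^{i β(σ)})`, `α' = (1-z)/2`, `β' = -(1+z)/2`,
of speed `lamf`.  After one turn the lift is multiplied by `e^{i π (1 - z0)}`: the holonomy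
does not depend on `ε`, while the length does.
-/

namespace Vale.Agent.Lib.P205.H26

open scoped ContDiff

/-- height of the curve on the sphere -/
noncomputable def zf (z0 ε : ℝ) : ℝ → ℝ := fun σ => z0 + ε * Real.sin (8 * σ)

/-- derivative of the height -/
noncomputable def dzf (ε : ℝ) : ℝ → ℝ := fun σ => 8 * ε * Real.cos (8 * σ)

/-- squared speed of the horizontal lift -/
noncomputable def lam2 (z0 ε : ℝ) : ℝ → ℝ := fun σ =>
  ((1 - zf z0 ε σ ^ 2) + dzf ε σ ^ 2 / (1 - zf z0 ε σ ^ 2)) / 4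

/-- speed of the horizontal lift -/
noncomputable def lamf (z0 ε : ℝ) : ℝ → ℝ := fun σ => Real.sqrt (lam2 z0 ε σ)

/-- modulus of the first coordinate of the lift -/
noncomputable def cfun (z0 ε : ℝ) : ℝ → ℝ := fun σ => Real.sqrt ((1 + zf z0 ε σ) / 2)

/-- modulus of the second coordinate of the lift -/
noncomputable def sfun (z0 ε : ℝ) : ℝ → ℝ := fun σ => Real.sqrt ((1 - zf z0 ε σ) / 2)

/-- phase of the first coordinate of the lift -/
noncomputable def altf (z0 ε : ℝ) : ℝ → ℝ := gprim (fun σ => (1 - zf z0 ε σ) / 2)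

/-- phase of the second coordinate of the lift -/
noncomputable def betf (z0 ε : ℝ) : ℝ → ℝ := gprim (fun σ => -((1 + zf z0 ε σ) / 2))

/-- arclength of the lift -/
noncomputable def Lamf (z0 ε : ℝ) : ℝ → ℝ := gprim (lamf z0 ε)

section basic

variable {z0 ε : ℝ}

theorem zf_bounds (hz0 : |z0| ≤ 1 / 4) (h0 : 0 ≤ ε) (h1 : ε ≤ 1 / 2) (σ : ℝ) :
    -(3 / 4) ≤ zf z0 ε σ ∧ zf z0 ε σ ≤ 3 / 4 := by
  have hs1 := Real.sin_le_one (8 * σ)
  have hs2 := Real.neg_one_le_sin (8 * σ)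
  have ha := abs_le.mp hz0
  unfold zf
  constructor <;> nlinarith [ha.1, ha.2]

theorem q_bounds (hz0 : |z0| ≤ 1 / 4) (h0 : 0 ≤ ε) (h1 : ε ≤ 1 / 2) (σ : ℝ) :
    7 / 16 ≤ 1 - zf z0 ε σ ^ 2 ∧ 1 - zf z0 ε σ ^ 2 ≤ 1 := by
  obtain ⟨ha, hb⟩ := zf_bounds hz0 h0 h1 σ
  constructor <;> nlinarith

theorem lam2_ge (hz0 : |z0| ≤ 1 / 4) (h0 : 0 ≤ ε) (h1 : ε ≤ 1 / 2) (σ : ℝ) :
    1 / 16 ≤ lam2 z0 ε σ := by
  obtain ⟨ha, hb⟩ := q_bounds hz0 h0 h1 σ
  have hq : 0 < 1 - zf z0 ε σ ^ 2 := by linarith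
  have hd : 0 ≤ dzf ε σ ^ 2 / (1 - zf z0 ε σ ^ 2) := div_nonneg (sq_nonneg _) hq.le
  unfold lam2
  linarith

theorem lamf_ge (hz0 : |z0| ≤ 1 / 4) (h0 : 0 ≤ ε) (h1 : ε ≤ 1 / 2) (σ : ℝ) :
    1 / 4 ≤ lamf z0 ε σ := by
  unfold lamf
  apply Real.le_sqrt_of_sq_le
  have := lam2_ge hz0 h0 h1 σ
  linarith

theorem lamf_sq (hz0 : |z0| ≤ 1 / 4) (h0 : 0 ≤ ε) (h1 : ε ≤ 1 / 2) (σ : ℝ) :
    lamf z0 ε σ ^ 2 = lam2 z0 ε σ := by
  unfold lamf
  exact Real.sq_sqrt (by have := lam2_ge hz0 h0 h1 σ; linarith)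

theorem zf_contDiff : ContDiff ℝ ∞ (zf z0 ε) :=
  contDiff_const.add (contDiff_const.mul (Real.contDiff_sin.comp (contDiff_const.mul contDiff_id)))

theorem dzf_contDiff : ContDiff ℝ ∞ (dzf ε) :=
  contDiff_const.mul (Real.contDiff_cos.comp (contDiff_const.mul contDiff_id))

theorem zf_hasDerivAt (σ : ℝ) : HasDerivAt (zf z0 ε) (dzf ε σ) σ := by
  have h1 : HasDerivAt (fun σ : ℝ => 8 * σ) 8 σ := by
    simpa using (hasDerivAt_id σ).const_mul (8 : ℝ)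
  have h2 : HasDerivAt (fun σ : ℝ => Real.sin (8 * σ)) (Real.cos (8 * σ) * 8) σ := h1.sin
  have h3 : HasDerivAt (fun σ : ℝ => z0 + ε * Real.sin (8 * σ)) (ε * (Real.cos (8 * σ) * 8)) σ :=
    (h2.const_mul ε).const_add z0
  have e : dzf ε σ = ε * (Real.cos (8 * σ) * 8) := by unfold dzf; ring
  rw [e]
  exact h3

theorem zf_periodic : Function.Periodic (zf z0 ε) (2 * Real.pi) := by
  intro σ
  unfold zf
  have e : 8 * (σ + 2 * Real.pi) = 8 * σ + ((8 : ℕ) : ℝ) * (2 * Real.pi) := by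
    push_cast; ring
  rw [e, Real.sin_add_nat_mul_two_pi]

theorem dzf_periodic : Function.Periodic (dzf ε) (2 * Real.pi) := by
  intro σ
  unfold dzf
  have e : 8 * (σ + 2 * Real.pi) = 8 * σ + ((8 : ℕ) : ℝ) * (2 * Real.pi) := by
    push_cast; ring
  rw [e, Real.cos_add_nat_mul_two_pi]

theorem lam2_contDiff (hz0 : |z0| ≤ 1 / 4) (h0 : 0 ≤ ε) (h1 : ε ≤ 1 / 2) :
    ContDiff ℝ ∞ (lam2 z0 ε) := by
  have hq : ContDiff ℝ ∞ (fun σ => 1 - zf z0 ε σ ^ 2) := contDiff_const.sub (zf_contDiff.pow 2)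
  exact (hq.add ((dzf_contDiff.pow 2).div hq
    (fun σ => by have := (q_bounds hz0 h0 h1 σ).1; linarith))).div_const 4

theorem lamf_contDiff (hz0 : |z0| ≤ 1 / 4) (h0 : 0 ≤ ε) (h1 : ε ≤ 1 / 2) :
    ContDiff ℝ ∞ (lamf z0 ε) :=
  (lam2_contDiff hz0 h0 h1).sqrt (fun σ => by have := lam2_ge hz0 h0 h1 σ; linarith)

theorem lamf_periodic : Function.Periodic (lamf z0 ε) (2 * Real.pi) := by
  intro σ
  unfold lamf lam2
  rw [zf_periodic σ, dzf_periodic σ]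

theorem cfun_pos (hz0 : |z0| ≤ 1 / 4) (h0 : 0 ≤ ε) (h1 : ε ≤ 1 / 2) (σ : ℝ) :
    0 < cfun z0 ε σ := by
  unfold cfun
  apply Real.sqrt_pos.mpr
  have := (zf_bounds hz0 h0 h1 σ).1
  linarith

theorem sfun_pos (hz0 : |z0| ≤ 1 / 4) (h0 : 0 ≤ ε) (h1 : ε ≤ 1 / 2) (σ : ℝ) :
    0 < sfun z0 ε σ := by
  unfold sfun
  apply Real.sqrt_pos.mpr
  have := (zf_bounds hz0 h0 h1 σ).2
  linarith

theorem cfun_sq (hz0 : |z0| ≤ 1 / 4) (h0 : 0 ≤ ε) (h1 : ε ≤ 1 / 2) (σ : ℝ) :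
    cfun z0 ε σ ^ 2 = (1 + zf z0 ε σ) / 2 := by
  unfold cfun
  apply Real.sq_sqrt
  have := (zf_bounds hz0 h0 h1 σ).1
  linarith

theorem sfun_sq (hz0 : |z0| ≤ 1 / 4) (h0 : 0 ≤ ε) (h1 : ε ≤ 1 / 2) (σ : ℝ) :
    sfun z0 ε σ ^ 2 = (1 - zf z0 ε σ) / 2 := by
  unfold sfun
  apply Real.sq_sqrt
  have := (zf_bounds hz0 h0 h1 σ).2
  linarith

theorem cfun_contDiff (hz0 : |z0| ≤ 1 / 4) (h0 : 0 ≤ ε) (h1 : ε ≤ 1 / 2) :
    ContDiff ℝ ∞ (cfun z0 ε) :=
  ((contDiff_const.add zf_contDiff).div_const 2).sqrt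
    (fun σ => by have := (zf_bounds hz0 h0 h1 σ).1; linarith)

theorem sfun_contDiff (hz0 : |z0| ≤ 1 / 4) (h0 : 0 ≤ ε) (h1 : ε ≤ 1 / 2) :
    ContDiff ℝ ∞ (sfun z0 ε) :=
  ((contDiff_const.sub zf_contDiff).div_const 2).sqrt
    (fun σ => by have := (zf_bounds hz0 h0 h1 σ).2; linarith)

theorem cfun_hasDerivAt (hz0 : |z0| ≤ 1 / 4) (h0 : 0 ≤ ε) (h1 : ε ≤ 1 / 2) (σ : ℝ) :
    HasDerivAt (cfun z0 ε) (dzf ε σ / 2 / (2 * cfun z0 ε σ)) σ := by
  have h2 : HasDerivAt (fun σ => (1 + zf z0 ε σ) / 2) (dzf ε σ / 2) σ :=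
    ((zf_hasDerivAt σ).const_add 1).div_const 2
  exact h2.sqrt (by have := (zf_bounds hz0 h0 h1 σ).1; linarith)

theorem sfun_hasDerivAt (hz0 : |z0| ≤ 1 / 4) (h0 : 0 ≤ ε) (h1 : ε ≤ 1 / 2) (σ : ℝ) :
    HasDerivAt (sfun z0 ε) (-dzf ε σ / 2 / (2 * sfun z0 ε σ)) σ := by
  have h2 : HasDerivAt (fun σ => (1 - zf z0 ε σ) / 2) (-dzf ε σ / 2) σ :=
    ((zf_hasDerivAt σ).const_sub 1).div_const 2
  exact h2.sqrt (by have := (zf_bounds hz0 h0 h1 σ).2; linarith)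

theorem cfun_periodic : Function.Periodic (cfun z0 ε) (2 * Real.pi) := by
  intro σ
  unfold cfun
  rw [zf_periodic σ]

theorem sfun_periodic : Function.Periodic (sfun z0 ε) (2 * Real.pi) := by
  intro σ
  unfold sfun
  rw [zf_periodic σ]

end basic

section phases

variable {z0 ε : ℝ}

theorem alt_integrand_contDiff : ContDiff ℝ ∞ (fun σ => (1 - zf z0 ε σ) / 2) :=
  (contDiff_const.sub zf_contDiff).div_const 2

theorem bet_integrand_contDiff : ContDiff ℝ ∞ (fun σ => -((1 + zf z0 ε σ) / 2)) :=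
  ((contDiff_const.add zf_contDiff).div_const 2).neg

theorem altf_contDiff : ContDiff ℝ ∞ (altf z0 ε) := gprim_contDiff alt_integrand_contDiff

theorem betf_contDiff : ContDiff ℝ ∞ (betf z0 ε) := gprim_contDiff bet_integrand_contDiff

theorem altf_hasDerivAt (σ : ℝ) : HasDerivAt (altf z0 ε) ((1 - zf z0 ε σ) / 2) σ :=
  gprim_hasDerivAt alt_integrand_contDiff.continuous σ

theorem betf_hasDerivAt (σ : ℝ) : HasDerivAt (betf z0 ε) (-((1 + zf z0 ε σ) / 2)) σ :=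
  gprim_hasDerivAt bet_integrand_contDiff.continuous σ

theorem cos8_hasDerivAt (σ : ℝ) :
    HasDerivAt (fun σ : ℝ => Real.cos (8 * σ)) (-Real.sin (8 * σ) * 8) σ := by
  have h1 : HasDerivAt (fun σ : ℝ => 8 * σ) 8 σ := by
    simpa using (hasDerivAt_id σ).const_mul (8 : ℝ)
  exact h1.cos

theorem altf_two_pi : altf z0 ε (2 * Real.pi) = Real.pi * (1 - z0) := by
  unfold altf gprim
  have key : ∀ σ ∈ Set.uIcc (0 : ℝ) (2 * Real.pi),
      HasDerivAt (fun σ : ℝ => (1 - z0) / 2 * σ + ε * Real.cos (8 * σ) / 16)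
        ((1 - zf z0 ε σ) / 2) σ := by
    intro σ _
    have h3 : HasDerivAt (fun σ : ℝ => (1 - z0) / 2 * σ + ε * Real.cos (8 * σ) / 16)
        ((1 - z0) / 2 * 1 + ε * (-Real.sin (8 * σ) * 8) / 16) σ :=
      ((hasDerivAt_id σ).const_mul ((1 - z0) / 2)).add (((cos8_hasDerivAt σ).const_mul ε).div_const 16)
    have e : (1 - zf z0 ε σ) / 2 = (1 - z0) / 2 * 1 + ε * (-Real.sin (8 * σ) * 8) / 16 := by
      unfold zf; ring
    rw [e]; exact h3
  rw [intervalIntegral.integral_eq_sub_of_hasDerivAt key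
    (alt_integrand_contDiff.continuous.intervalIntegrable _ _)]
  have e : 8 * (2 * Real.pi) = ((8 : ℕ) : ℝ) * (2 * Real.pi) := by push_cast; ring
  simp only [e, Real.cos_nat_mul_two_pi, mul_zero, Real.cos_zero]
  ring

theorem betf_two_pi : betf z0 ε (2 * Real.pi) = -(Real.pi * (1 + z0)) := by
  unfold betf gprim
  have key : ∀ σ ∈ Set.uIcc (0 : ℝ) (2 * Real.pi),
      HasDerivAt (fun σ : ℝ => -(1 + z0) / 2 * σ + ε * Real.cos (8 * σ) / 16)
        (-((1 + zf z0 ε σ) / 2)) σ := by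
    intro σ _
    have h3 : HasDerivAt (fun σ : ℝ => -(1 + z0) / 2 * σ + ε * Real.cos (8 * σ) / 16)
        (-(1 + z0) / 2 * 1 + ε * (-Real.sin (8 * σ) * 8) / 16) σ :=
      ((hasDerivAt_id σ).const_mul (-(1 + z0) / 2)).add (((cos8_hasDerivAt σ).const_mul ε).div_const 16)
    have e : -((1 + zf z0 ε σ) / 2) = -(1 + z0) / 2 * 1 + ε * (-Real.sin (8 * σ) * 8) / 16 := by
      unfold zf; ring
    rw [e]; exact h3
  rw [intervalIntegral.integral_eq_sub_of_hasDerivAt key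
    (bet_integrand_contDiff.continuous.intervalIntegrable _ _)]
  have e : 8 * (2 * Real.pi) = ((8 : ℕ) : ℝ) * (2 * Real.pi) := by push_cast; ring
  simp only [e, Real.cos_nat_mul_two_pi, mul_zero, Real.cos_zero]
  ring

theorem altf_add_two_pi (σ : ℝ) :
    altf z0 ε (σ + 2 * Real.pi) = altf z0 ε σ + Real.pi * (1 - z0) := by
  have hper : Function.Periodic (fun σ => (1 - zf z0 ε σ) / 2) (2 * Real.pi) := by
    intro σ
    show (1 - zf z0 ε (σ + 2 * Real.pi)) / 2 = (1 - zf z0 ε σ) / 2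
    rw [zf_periodic σ]
  have h := gprim_add_period alt_integrand_contDiff.continuous hper σ
  have h2 : gprim (fun σ => (1 - zf z0 ε σ) / 2) (2 * Real.pi) = Real.pi * (1 - z0) := altf_two_pi
  rw [h2] at h
  exact h

theorem betf_add_two_pi (σ : ℝ) :
    betf z0 ε (σ + 2 * Real.pi) = betf z0 ε σ + -(Real.pi * (1 + z0)) := by
  have hper : Function.Periodic (fun σ => -((1 + zf z0 ε σ) / 2)) (2 * Real.pi) := by
    intro σ
    show -((1 + zf z0 ε (σ + 2 * Real.pi)) / 2) = -((1 + zf z0 ε σ) / 2)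
    rw [zf_periodic σ]
  have h := gprim_add_period bet_integrand_contDiff.continuous hper σ
  have h2 : gprim (fun σ => -((1 + zf z0 ε σ) / 2)) (2 * Real.pi) = -(Real.pi * (1 + z0)) :=
    betf_two_pi
  rw [h2] at h
  exact h

/-- a function that shifts by `c` under `T` shifts by `n c` under `n T` -/
theorem shift_nat {F : ℝ → ℝ} {T c : ℝ} (h : ∀ x, F (x + T) = F x + c) (n : ℕ) (x : ℝ) :
    F (x + n * T) = F x + n * c := by
  induction n with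
  | zero => simp
  | succ n ih =>
    have e : x + ((n + 1 : ℕ) : ℝ) * T = (x + n * T) + T := by push_cast; ring
    rw [e, h, ih]
    push_cast
    ring

end phases

section length

variable {z0 ε : ℝ}

theorem Lamf_hasDerivAt (hz0 : |z0| ≤ 1 / 4) (h0 : 0 ≤ ε) (h1 : ε ≤ 1 / 2) (σ : ℝ) :
    HasDerivAt (Lamf z0 ε) (lamf z0 ε σ) σ :=
  gprim_hasDerivAt (lamf_contDiff hz0 h0 h1).continuous σ

theorem Lamf_contDiff (hz0 : |z0| ≤ 1 / 4) (h0 : 0 ≤ ε) (h1 : ε ≤ 1 / 2) :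
    ContDiff ℝ ∞ (Lamf z0 ε) :=
  gprim_contDiff (lamf_contDiff hz0 h0 h1)

theorem Lamf_add_two_pi (hz0 : |z0| ≤ 1 / 4) (h0 : 0 ≤ ε) (h1 : ε ≤ 1 / 2) (σ : ℝ) :
    Lamf z0 ε (σ + 2 * Real.pi) = Lamf z0 ε σ + Lamf z0 ε (2 * Real.pi) :=
  gprim_add_period (lamf_contDiff hz0 h0 h1).continuous lamf_periodic σ

theorem Lamf_zero_le (hz0 : |z0| ≤ 1 / 4) : Lamf z0 0 (2 * Real.pi) ≤ Real.pi := by
  have hpt : ∀ σ ∈ Set.Icc (0 : ℝ) (2 * Real.pi), lamf z0 0 σ ≤ 1 / 2 := by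
    intro σ _
    unfold lamf
    rw [Real.sqrt_le_iff]
    refine ⟨by norm_num, ?_⟩
    have hq := q_bounds hz0 (le_refl (0 : ℝ)) (by norm_num) σ
    unfold lam2 dzf
    have e : (8 * (0 : ℝ) * Real.cos (8 * σ)) ^ 2 / (1 - zf z0 0 σ ^ 2) = 0 := by simp
    rw [e]
    linarith [hq.2]
  have h := intervalIntegral.integral_mono_on (μ := MeasureTheory.volume)
    (by positivity : (0 : ℝ) ≤ 2 * Real.pi)
    ((lamf_contDiff hz0 (le_refl (0 : ℝ)) (by norm_num)).continuous.intervalIntegrable _ _)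
    (continuous_const.intervalIntegrable _ _) hpt
  have h2 : ∫ _ in (0 : ℝ)..(2 * Real.pi), (1 / 2 : ℝ) = Real.pi := by
    rw [intervalIntegral.integral_const]
    simp
    ring
  unfold Lamf gprim
  linarith

theorem Lamf_half_ge (hz0 : |z0| ≤ 1 / 4) : 2 * Real.pi ≤ Lamf z0 (1 / 2) (2 * Real.pi) := by
  have hpt : ∀ σ ∈ Set.Icc (0 : ℝ) (2 * Real.pi),
      2 * Real.cos (8 * σ) ^ 2 ≤ lamf z0 (1 / 2) σ := by
    intro σ _
    unfold lamf
    apply Real.le_sqrt_of_sq_le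
    have hq := q_bounds hz0 (by norm_num : (0 : ℝ) ≤ 1 / 2) (le_refl _) σ
    have hqpos : 0 < 1 - zf z0 (1 / 2) σ ^ 2 := by linarith [hq.1]
    have hc1 : Real.cos (8 * σ) ^ 2 ≤ 1 := Real.cos_sq_le_one _
    have hc0 : 0 ≤ Real.cos (8 * σ) ^ 2 := sq_nonneg _
    have hd : dzf (1 / 2) σ ^ 2 = 16 * Real.cos (8 * σ) ^ 2 := by unfold dzf; ring
    have hdiv : dzf (1 / 2) σ ^ 2 ≤ dzf (1 / 2) σ ^ 2 / (1 - zf z0 (1 / 2) σ ^ 2) := by
      rw [le_div_iff₀ hqpos]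
      nlinarith [sq_nonneg (dzf (1 / 2) σ), hq.2]
    unfold lam2
    nlinarith [hq.1]
  have key : ∀ σ ∈ Set.uIcc (0 : ℝ) (2 * Real.pi),
      HasDerivAt (fun σ : ℝ => σ + Real.sin (16 * σ) / 16) (2 * Real.cos (8 * σ) ^ 2) σ := by
    intro σ _
    have h1 : HasDerivAt (fun σ : ℝ => 16 * σ) 16 σ := by
      simpa using (hasDerivAt_id σ).const_mul (16 : ℝ)
    have h2 : HasDerivAt (fun σ : ℝ => Real.sin (16 * σ)) (Real.cos (16 * σ) * 16) σ := h1.sin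
    have h3 : HasDerivAt (fun σ : ℝ => σ + Real.sin (16 * σ) / 16)
        (1 + Real.cos (16 * σ) * 16 / 16) σ := (hasDerivAt_id σ).add (h2.div_const 16)
    have e : 2 * Real.cos (8 * σ) ^ 2 = 1 + Real.cos (16 * σ) * 16 / 16 := by
      have e2 : (16 : ℝ) * σ = 2 * (8 * σ) := by ring
      rw [e2, Real.cos_two_mul]
      ring
    rw [e]; exact h3
  have hcont : Continuous (fun σ : ℝ => 2 * Real.cos (8 * σ) ^ 2) := by fun_prop
  have hint : ∫ σ in (0 : ℝ)..(2 * Real.pi), 2 * Real.cos (8 * σ) ^ 2 = 2 * Real.pi := by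
    rw [intervalIntegral.integral_eq_sub_of_hasDerivAt key (hcont.intervalIntegrable _ _)]
    have e : 16 * (2 * Real.pi) = ((32 : ℕ) : ℝ) * Real.pi := by push_cast; ring
    simp only [e, Real.sin_nat_mul_pi, mul_zero, Real.sin_zero]
    ring
  have h := intervalIntegral.integral_mono_on (μ := MeasureTheory.volume)
    (by positivity : (0 : ℝ) ≤ 2 * Real.pi)
    (hcont.intervalIntegrable _ _)
    ((lamf_contDiff hz0 (by norm_num : (0 : ℝ) ≤ 1 / 2) (le_refl _)).continuous.intervalIntegrable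
      _ _) hpt
  unfold Lamf gprim
  linarith

theorem Lamf_param_continuous (hz0 : |z0| ≤ 1 / 4) :
    Continuous (fun t : ℝ => Lamf z0 (Real.sin t ^ 2 / 2) (2 * Real.pi)) := by
  have hε : ∀ t : ℝ, 0 ≤ Real.sin t ^ 2 / 2 ∧ Real.sin t ^ 2 / 2 ≤ 1 / 2 := by
    intro t
    have := Real.sin_sq_le_one t
    have := sq_nonneg (Real.sin t)
    constructor <;> linarith
  have hz : Continuous (fun p : ℝ × ℝ => zf z0 (Real.sin p.1 ^ 2 / 2) p.2) := by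
    unfold zf; fun_prop
  have hd : Continuous (fun p : ℝ × ℝ => dzf (Real.sin p.1 ^ 2 / 2) p.2) := by
    unfold dzf; fun_prop
  have hq : Continuous (fun p : ℝ × ℝ => 1 - zf z0 (Real.sin p.1 ^ 2 / 2) p.2 ^ 2) :=
    continuous_const.sub (hz.pow 2)
  have hc : Continuous (fun p : ℝ × ℝ => lamf z0 (Real.sin p.1 ^ 2 / 2) p.2) := by
    unfold lamf lam2
    exact Real.continuous_sqrt.comp ((hq.add ((hd.pow 2).div hq
      (fun p => by have := (q_bounds hz0 (hε p.1).1 (hε p.1).2 p.2).1; linarith))).div_const 4)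
  unfold Lamf gprim
  exact intervalIntegral.continuous_parametric_intervalIntegral_of_continuous' hc 0 (2 * Real.pi)

theorem exists_eps (hz0 : |z0| ≤ 1 / 4) {y : ℝ} (hy1 : Real.pi ≤ y) (hy2 : y ≤ 2 * Real.pi) :
    ∃ ε : ℝ, 0 ≤ ε ∧ ε ≤ 1 / 2 ∧ Lamf z0 ε (2 * Real.pi) = y := by
  have hcont := Lamf_param_continuous hz0
  have hmem : y ∈ Set.Icc (Lamf z0 (Real.sin 0 ^ 2 / 2) (2 * Real.pi))
      (Lamf z0 (Real.sin (Real.pi / 2) ^ 2 / 2) (2 * Real.pi)) := by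
    constructor
    · have e : Real.sin 0 ^ 2 / 2 = 0 := by simp
      rw [e]
      exact le_trans (Lamf_zero_le hz0) hy1
    · have e : Real.sin (Real.pi / 2) ^ 2 / 2 = 1 / 2 := by simp
      rw [e]
      exact le_trans hy2 (Lamf_half_ge hz0)
  obtain ⟨t, -, ht⟩ := intermediate_value_Icc (by positivity : (0 : ℝ) ≤ Real.pi / 2)
    hcont.continuousOn hmem
  refine ⟨Real.sin t ^ 2 / 2, ?_, ?_, ht⟩
  · have := sq_nonneg (Real.sin t)
    linarith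
  · have := Real.sin_sq_le_one t
    linarith

end length

end Vale.Agent.Lib.P205.H26
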