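import Vale.Agent.Lib.P229.Surf

/-!
# P205: tori whose metric depends on one coordinate immerse isometrically in four-space

A metric `E(r) dr² + 2 M(r) dr dθ + G(r) dθ²` on the torus `ℝ² / (L ℤ × 2π ℤ)` is realized by
a `k`-fold wrapped rotation torus
`Φ(r, θ) = ((√G / k) e^{i (k θ + ζ(r))}, R e^{i om S(r)})` in `ℂ² = ℝ⁴`.
-/

namespace Vale.Agent.Lib.P205.H26

open scoped ContDiff
open Vale.Agent.Lib.P229

/-- the primitive `x ↦ ∫ t in 0..x, ψ t` -/
noncomputable def gprim (ψ : ℝ → ℝ) : ℝ → ℝ := fun x => ∫ t in (0 : ℝ)..x, ψ t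

theorem gprim_hasDerivAt {ψ : ℝ → ℝ} (hψ : Continuous ψ) (x : ℝ) :
    HasDerivAt (gprim ψ) (ψ x) x := by
  unfold gprim
  exact intervalIntegral.integral_hasDerivAt_right (hψ.intervalIntegrable _ _)
    (hψ.stronglyMeasurableAtFilter _ _) hψ.continuousAt

theorem gprim_contDiff {ψ : ℝ → ℝ} (hψ : ContDiff ℝ ∞ ψ) : ContDiff ℝ ∞ (gprim ψ) := by
  rw [contDiff_infty_iff_deriv]
  refine ⟨fun x => (gprim_hasDerivAt hψ.continuous x).differentiableAt, ?_⟩
  have h : deriv (gprim ψ) = ψ := funext fun x => (gprim_hasDerivAt hψ.continuous x).deriv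
  rw [h]
  exact hψ

theorem gprim_add_period {ψ : ℝ → ℝ} {L : ℝ} (hψ : Continuous ψ)
    (hper : Function.Periodic ψ L) (x : ℝ) :
    gprim ψ (x + L) = gprim ψ x + gprim ψ L := by
  unfold gprim
  have h1 : ∫ t in (0 : ℝ)..(x + L), ψ t
      = (∫ t in (0 : ℝ)..x, ψ t) + ∫ t in x..(x + L), ψ t :=
    (intervalIntegral.integral_add_adjacent_intervals (hψ.intervalIntegrable _ _)
      (hψ.intervalIntegrable _ _)).symm
  have h2 : ∫ t in x..(x + L), ψ t = ∫ t in (0 : ℝ)..(0 + L), ψ t :=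
    hper.intervalIntegral_add_eq x 0
  rw [h1, h2, zero_add]


theorem periodic_bddAbove {f : ℝ → ℝ} {L : ℝ} (hL : 0 < L) (hf : Continuous f)
    (hper : Function.Periodic f L) : ∃ B : ℝ, ∀ x, f x ≤ B := by
  obtain ⟨y, -, hy⟩ := isCompact_Icc.exists_isMaxOn (Set.nonempty_Icc.mpr hL.le)
    (hf.continuousOn (s := Set.Icc 0 L))
  refine ⟨f y, fun x => ?_⟩
  obtain ⟨z, hz, hxz⟩ := hper.exists_mem_Ico₀ hL x
  rw [hxz]
  exact hy (Set.Ico_subset_Icc_self hz)

theorem exists_torus_immersion (E M G : ℝ → ℝ) (L : ℝ) (hL : 0 < L)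
    (hE : ContDiff ℝ ∞ E) (hM : ContDiff ℝ ∞ M) (hG : ContDiff ℝ ∞ G)
    (hEper : ∀ r, E (r + L) = E r) (hMper : ∀ r, M (r + L) = M r)
    (hGper : ∀ r, G (r + L) = G r)
    (hGpos : ∀ r, 0 < G r) (hdet : ∀ r, 0 < E r * G r - M r ^ 2)
    (p : ℤ) (q : ℕ) (hq : 0 < q)
    (hol : (∫ r in (0 : ℝ)..L, M r / G r) * q = 2 * Real.pi * p) :
    ∃ X₁ X₂ X₃ X₄ : ℝ × ℝ → ℝ,
      ContDiff ℝ ∞ X₁ ∧ ContDiff ℝ ∞ X₂ ∧ ContDiff ℝ ∞ X₃ ∧ ContDiff ℝ ∞ X₄ ∧
      (∀ r θ : ℝ, X₁ (r + L, θ) = X₁ (r, θ) ∧ X₂ (r + L, θ) = X₂ (r, θ) ∧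
        X₃ (r + L, θ) = X₃ (r, θ) ∧ X₄ (r + L, θ) = X₄ (r, θ)) ∧
      (∀ r θ : ℝ, X₁ (r, θ + 2 * Real.pi) = X₁ (r, θ) ∧ X₂ (r, θ + 2 * Real.pi) = X₂ (r, θ) ∧
        X₃ (r, θ + 2 * Real.pi) = X₃ (r, θ) ∧ X₄ (r, θ + 2 * Real.pi) = X₄ (r, θ)) ∧
      ∀ x : ℝ × ℝ,
        (fderiv ℝ X₁ x (1, 0)) ^ 2 + (fderiv ℝ X₂ x (1, 0)) ^ 2 + (fderiv ℝ X₃ x (1, 0)) ^ 2
          + (fderiv ℝ X₄ x (1, 0)) ^ 2 = E x.1 ∧
        fderiv ℝ X₁ x (1, 0) * fderiv ℝ X₁ x (0, 1) + fderiv ℝ X₂ x (1, 0) * fderiv ℝ X₂ x (0, 1)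
          + fderiv ℝ X₃ x (1, 0) * fderiv ℝ X₃ x (0, 1)
          + fderiv ℝ X₄ x (1, 0) * fderiv ℝ X₄ x (0, 1) = M x.1 ∧
        (fderiv ℝ X₁ x (0, 1)) ^ 2 + (fderiv ℝ X₂ x (0, 1)) ^ 2 + (fderiv ℝ X₃ x (0, 1)) ^ 2
          + (fderiv ℝ X₄ x (0, 1)) ^ 2 = G x.1 := by
  have hGne : ∀ r, G r ≠ 0 := fun r => ne_of_gt (hGpos r)
  have hG' : ContDiff ℝ ∞ (deriv G) := by
    have h := hG
    rw [contDiff_infty_iff_deriv] at h
    exact h.2
  have hGd : ∀ r, HasDerivAt G (deriv G r) r := fun r =>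
    ((hG.differentiable (by simp)) r).hasDerivAt
  have hG'per : ∀ r, deriv G (r + L) = deriv G r := by
    intro r
    have h1 : deriv (fun x => G (x + L)) r = deriv G (r + L) := deriv_comp_add_const G L r
    have h2 : (fun x => G (x + L)) = G := funext hGper
    rw [← h1, h2]
  -- the two auxiliary functions
  set δ : ℝ → ℝ := fun r => (E r * G r - M r ^ 2) / G r with hδ
  set A : ℝ → ℝ := fun r => (deriv G r) ^ 2 / (4 * G r) with hA
  have hδpos : ∀ r, 0 < δ r := fun r => div_pos (hdet r) (hGpos r)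
  have hA0 : ∀ r, 0 ≤ A r := fun r => by
    have := hGpos r
    simp only [hA]
    positivity
  have hδc : ContDiff ℝ ∞ δ := ((hE.mul hG).sub (hM.pow 2)).div hG hGne
  have hAc : ContDiff ℝ ∞ A :=
    (hG'.pow 2).div (contDiff_const.mul hG) (fun r => by have := hGne r; positivity)
  have hδper : Function.Periodic δ L := fun r => by
    simp only [hδ, hEper r, hGper r, hMper r]
  have hAper : Function.Periodic A L := fun r => by
    simp only [hA, hG'per r, hGper r]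
  -- a bound for the quotient
  have hquot : Continuous (fun r => A r / δ r) :=
    hAc.continuous.div hδc.continuous (fun r => ne_of_gt (hδpos r))
  have hquotper : Function.Periodic (fun r => A r / δ r) L := fun r => by
    show A (r + L) / δ (r + L) = A r / δ r
    rw [hAper r, hδper r]
  obtain ⟨B, hB⟩ := periodic_bddAbove hL hquot hquotper
  -- the winding number
  set m : ℕ := ⌈B⌉₊ + 1 with hm
  set k : ℕ := q * m with hk
  have hm1 : (1 : ℝ) ≤ m := by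
    have : 1 ≤ m := by omega
    exact_mod_cast this
  have hBm : B < m := by
    have h1 : B ≤ ⌈B⌉₊ := Nat.le_ceil B
    have h2 : ((⌈B⌉₊ + 1 : ℕ) : ℝ) = (⌈B⌉₊ : ℝ) + 1 := by push_cast; ring
    rw [hm, h2]
    linarith
  have hq1 : (1 : ℝ) ≤ q := by exact_mod_cast hq
  have hkm : (m : ℝ) ≤ k := by
    rw [hk]
    push_cast
    nlinarith
  have hk1 : (1 : ℝ) ≤ k := le_trans hm1 hkm
  have hkpos : (0 : ℝ) < k := by linarith
  have hkne : (k : ℝ) ≠ 0 := ne_of_gt hkpos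
  have hBk2 : B < (k : ℝ) ^ 2 := by nlinarith
  set D : ℝ → ℝ := fun r => δ r - A r / (k : ℝ) ^ 2 with hD
  have hDpos : ∀ r, 0 < D r := by
    intro r
    have h1 : A r / δ r < (k : ℝ) ^ 2 := lt_of_le_of_lt (hB r) hBk2
    have h2 : A r < (k : ℝ) ^ 2 * δ r := (div_lt_iff₀ (hδpos r)).mp h1
    have h3 : A r / (k : ℝ) ^ 2 < δ r := by
      rw [div_lt_iff₀ (by positivity)]
      linarith
    simp only [hD]
    linarith
  have hDc : ContDiff ℝ ∞ D := hδc.sub (hAc.div_const _)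
  have hDper : Function.Periodic D L := fun r => by
    simp only [hD, hδper r, hAper r]
  -- the speed of the second circle and its primitive
  set v : ℝ → ℝ := fun r => Real.sqrt (D r) with hv
  have hvc : ContDiff ℝ ∞ v := hDc.sqrt (fun r => ne_of_gt (hDpos r))
  have hvpos : ∀ r, 0 < v r := fun r => Real.sqrt_pos.mpr (hDpos r)
  have hvper : Function.Periodic v L := fun r => by
    simp only [hv, hDper r]
  set S : ℝ → ℝ := gprim v with hS
  have hSc : ContDiff ℝ ∞ S := gprim_contDiff hvc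
  have hSL : 0 < S L := by
    simp only [hS, gprim]
    exact intervalIntegral.intervalIntegral_pos_of_pos_on
      (hvc.continuous.intervalIntegrable _ _) (fun x _ => hvpos x) hL
  have hSper : ∀ r, S (r + L) = S r + S L := gprim_add_period hvc.continuous hvper
  set om : ℝ := 2 * Real.pi / S L with hom
  set R : ℝ := S L / (2 * Real.pi) with hR
  have hRom : R * om = 1 := by
    rw [hR, hom]
    field_simp
  -- the first circle
  set ρ : ℝ → ℝ := fun r => Real.sqrt (G r) / k with hρ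
  set ψ : ℝ → ℝ := fun r => k * M r / G r with hψ
  have hρc : ContDiff ℝ ∞ ρ := (hG.sqrt hGne).div_const _
  have hψc : ContDiff ℝ ∞ ψ := (contDiff_const.mul hM).div hG hGne
  have hψper : Function.Periodic ψ L := fun r => by
    simp only [hψ, hMper r, hGper r]
  set ζ : ℝ → ℝ := gprim ψ with hζ
  have hζc : ContDiff ℝ ∞ ζ := gprim_contDiff hψc
  have hζper : ∀ r, ζ (r + L) = ζ r + ζ L := gprim_add_period hψc.continuous hψper
  have hζL : ζ L = ((m : ℤ) * p : ℤ) * (2 * Real.pi) := by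
    have h1 : ζ L = k * ∫ r in (0 : ℝ)..L, M r / G r := by
      simp only [hζ, gprim, hψ]
      rw [← intervalIntegral.integral_const_mul]
      congr 1
      funext r
      ring
    rw [h1, hk]
    push_cast
    linear_combination (m : ℝ) * hol
  -- smoothness of the coordinates
  have hθ1 : ContDiff ℝ ∞ (fun x : ℝ × ℝ => (k : ℝ) * x.2 + ζ x.1) :=
    (contDiff_const.mul contDiff_snd).add (hζc.comp contDiff_fst)
  have hθ2 : ContDiff ℝ ∞ (fun x : ℝ × ℝ => (0 : ℝ) * x.2 + om * S x.1) :=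
    (contDiff_const.mul contDiff_snd).add (contDiff_const.mul (hSc.comp contDiff_fst))
  have hρfst : ContDiff ℝ ∞ (fun x : ℝ × ℝ => ρ x.1) := hρc.comp contDiff_fst
  refine ⟨surfX ρ ζ k, surfY ρ ζ k, surfX (fun _ => R) (fun r => om * S r) 0,
    surfY (fun _ => R) (fun r => om * S r) 0, ?_, ?_, ?_, ?_, ?_, ?_, ?_⟩
  · exact hρfst.mul (Real.contDiff_cos.comp hθ1)
  · exact hρfst.mul (Real.contDiff_sin.comp hθ1)
  · exact contDiff_const.mul (Real.contDiff_cos.comp hθ2)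
  · exact contDiff_const.mul (Real.contDiff_sin.comp hθ2)
  · intro r θ
    have hρL : ρ (r + L) = ρ r := by simp only [hρ, hGper r]
    have e1 : (k : ℝ) * θ + ζ (r + L) = ((k : ℝ) * θ + ζ r) + ((m : ℤ) * p : ℤ) * (2 * Real.pi) := by
      rw [hζper r, hζL]
      ring
    have e2 : (0 : ℝ) * θ + om * S (r + L) = ((0 : ℝ) * θ + om * S r) + 2 * Real.pi := by
      rw [hSper r, hom]
      field_simp
      ring
    refine ⟨?_, ?_, ?_, ?_⟩
    · show ρ (r + L) * Real.cos ((k : ℝ) * θ + ζ (r + L)) = ρ r * Real.cos ((k : ℝ) * θ + ζ r)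
      rw [hρL, e1, Real.cos_add_int_mul_two_pi]
    · show ρ (r + L) * Real.sin ((k : ℝ) * θ + ζ (r + L)) = ρ r * Real.sin ((k : ℝ) * θ + ζ r)
      rw [hρL, e1, Real.sin_add_int_mul_two_pi]
    · show R * Real.cos ((0 : ℝ) * θ + om * S (r + L)) = R * Real.cos ((0 : ℝ) * θ + om * S r)
      rw [e2, Real.cos_add_two_pi]
    · show R * Real.sin ((0 : ℝ) * θ + om * S (r + L)) = R * Real.sin ((0 : ℝ) * θ + om * S r)
      rw [e2, Real.sin_add_two_pi]
  · intro r θ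
    have e1 : (k : ℝ) * (θ + 2 * Real.pi) + ζ r = ((k : ℝ) * θ + ζ r) + (k : ℕ) * (2 * Real.pi) := by
      ring
    refine ⟨?_, ?_, ?_, ?_⟩
    · show ρ r * Real.cos ((k : ℝ) * (θ + 2 * Real.pi) + ζ r) = ρ r * Real.cos ((k : ℝ) * θ + ζ r)
      rw [e1, Real.cos_add_nat_mul_two_pi]
    · show ρ r * Real.sin ((k : ℝ) * (θ + 2 * Real.pi) + ζ r) = ρ r * Real.sin ((k : ℝ) * θ + ζ r)
      rw [e1, Real.sin_add_nat_mul_two_pi]
    · show R * Real.cos ((0 : ℝ) * (θ + 2 * Real.pi) + om * S r) = R * Real.cos ((0 : ℝ) * θ + om * S r)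
      simp
    · show R * Real.sin ((0 : ℝ) * (θ + 2 * Real.pi) + om * S r) = R * Real.sin ((0 : ℝ) * θ + om * S r)
      simp
  · intro x
    have hGx : 0 < G x.1 := hGpos x.1
    have hDx : 0 < D x.1 := hDpos x.1
    have hρd : HasDerivAt ρ (deriv G x.1 / (2 * Real.sqrt (G x.1)) / k) x.1 :=
      ((hGd x.1).sqrt (ne_of_gt hGx)).div_const _
    have hζd : HasDerivAt ζ (k * M x.1 / G x.1) x.1 := gprim_hasDerivAt hψc.continuous x.1
    have hRd : HasDerivAt (fun _ : ℝ => R) 0 x.1 := hasDerivAt_const _ _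
    have hSd : HasDerivAt S (v x.1) x.1 := gprim_hasDerivAt hvc.continuous x.1
    have hφd : HasDerivAt (fun r => om * S r) (om * v x.1) x.1 := hSd.const_mul om
    rw [surfX_dx hρd hζd, surfX_dy hρd hζd, surfY_dx hρd hζd, surfY_dy hρd hζd,
      surfX_dx hRd hφd, surfX_dy hRd hφd, surfY_dx hRd hφd, surfY_dy hRd hφd]
    have hsG : Real.sqrt (G x.1) ^ 2 = G x.1 := Real.sq_sqrt hGx.le
    have hsGpos : 0 < Real.sqrt (G x.1) := Real.sqrt_pos.mpr hGx
    have hsD : v x.1 ^ 2 = D x.1 := Real.sq_sqrt hDx.le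
    have hsc1 := Real.sin_sq_add_cos_sq ((k : ℝ) * x.2 + ζ x.1)
    have hsc2 := Real.sin_sq_add_cos_sq ((0 : ℝ) * x.2 + om * S x.1)
    have hDval : D x.1 = (E x.1 * G x.1 - M x.1 ^ 2) / G x.1
        - (deriv G x.1) ^ 2 / (4 * G x.1) / (k : ℝ) ^ 2 := rfl
    have hρval : ρ x.1 = Real.sqrt (G x.1) / k := rfl
    rw [hρval]
    set sG := Real.sqrt (G x.1) with hsGdef
    set w := v x.1 with hwdef
    set S1 := Real.sin ((k : ℝ) * x.2 + ζ x.1) with hS1
    set C1 := Real.cos ((k : ℝ) * x.2 + ζ x.1) with hC1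
    set S2 := Real.sin ((0 : ℝ) * x.2 + om * S x.1) with hS2
    set C2 := Real.cos ((0 : ℝ) * x.2 + om * S x.1) with hC2
    set g' := deriv G x.1 with hg'
    have hsGne : sG ≠ 0 := ne_of_gt hsGpos
    have hGne' : G x.1 ≠ 0 := ne_of_gt hGx
    refine ⟨?_, ?_, ?_⟩
    · have h1 : (g' / (2 * sG) / k * C1 - sG / k * (k * M x.1 / G x.1) * S1) ^ 2
          + (g' / (2 * sG) / k * S1 + sG / k * (k * M x.1 / G x.1) * C1) ^ 2
          + (0 * C2 - R * (om * w) * S2) ^ 2 + (0 * S2 + R * (om * w) * C2) ^ 2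
          = (g' / (2 * sG) / k) ^ 2 + (sG / k * (k * M x.1 / G x.1)) ^ 2 + w ^ 2 := by
        linear_combination ((g' / (2 * sG) / k) ^ 2 + (sG / k * (k * M x.1 / G x.1)) ^ 2) * hsc1
          + (R * om * w) ^ 2 * hsc2 + w ^ 2 * (R * om + 1) * hRom
      rw [h1, hsD, hDval, ← hsG]
      field_simp
      ring
    · have h1 : (g' / (2 * sG) / k * C1 - sG / k * (k * M x.1 / G x.1) * S1) * (-k * (sG / k) * S1)
          + (g' / (2 * sG) / k * S1 + sG / k * (k * M x.1 / G x.1) * C1) * (k * (sG / k) * C1)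
          + (0 * C2 - R * (om * w) * S2) * (-0 * R * S2)
          + (0 * S2 + R * (om * w) * C2) * (0 * R * C2)
          = k * (sG / k) * (sG / k * (k * M x.1 / G x.1)) := by
        linear_combination (k * (sG / k) * (sG / k * (k * M x.1 / G x.1))) * hsc1
      rw [h1, ← hsG]
      field_simp
    · have h1 : (-k * (sG / k) * S1) ^ 2 + (k * (sG / k) * C1) ^ 2 + (-0 * R * S2) ^ 2
          + (0 * R * C2) ^ 2 = (k * (sG / k)) ^ 2 := by
        linear_combination ((k * (sG / k)) ^ 2) * hsc1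
      rw [h1, ← hsG]
      field_simp

end Vale.Agent.Lib.P205.H26
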